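import Vale.Agent.N212R.Main

namespace Vale.Agent.Results.P212.A0RegularGraphs

open Vale.Agent.P212 Vale.Agent.N212R

/-- (1) For every `d ≥ 3` there are continuum many pairwise coarsely inequivalent connected
`d`-regular graphs whose coarse assembly maps are not rationally injective, and the failure passes
to all spaces which coarsely retract onto one of them; (2) every connected graph of bounded degree
embeds isometrically in a regular counterexample. -/
theorem result :
    (∀ d ≥ 3, ∃ (X : ℝ → Type) (_ : ∀ t, MetricSpace (X t)) (_ : ∀ t, BddGeometry (X t)),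
      (∀ t, UnifDiscrete (X t) ∧ Fails (X t) ∧ IsGraph d d (X t) ∧
        ∀ (Y : Type) [MetricSpace Y] [BddGeometry Y], Retract (X t) Y → Fails Y) ∧
      ∀ s t, s ≠ t → ¬ CEquiv (X s) (X t)) ∧
    ∀ (Z : Type) [MetricSpace Z] (N d : ℕ), IsGraph 0 N Z → N < d → 3 < d →
      ∃ (Y : Type) (_ : MetricSpace Y) (_ : BddGeometry Y) (_ : UnifDiscrete Y),
        Fails Y ∧ IsGraph d d Y ∧ ∃ e : Z → Y, Isometry e :=
  main

end Vale.Agent.Results.P212.A0RegularGraphs
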